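import Mathlib

/-!
# P067: weights, norms and coboundaries on Mathlib's abstract simplicial complexes

The vertex set of the complex is `Fin n = {0, …, n-1}` (every singleton is a face).
-/

namespace Vale.P067.Cplx

open Finset
open scoped Classical

variable {n : ℕ}

/-- `K(i)`: the faces of `K` with `i + 1` vertices. -/
noncomputable def faces (K : AbstractSimplicialComplex (Fin n)) (i : ℕ) : Finset (Finset (Fin n)) :=
  univ.filter fun σ => σ ∈ K ∧ σ.card = i + 1

/-- `w_i(σ) = #{τ ∈ K(d) : σ ⊆ τ} / (binom(d+1, i+1) |K(d)|)`. -/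
noncomputable def weight (K : AbstractSimplicialComplex (Fin n)) (d i : ℕ)
    (σ : Finset (Fin n)) : ℝ :=
  (((faces K d).filter fun τ => σ ⊆ τ).card : ℝ) /
    (((d + 1).choose (i + 1) : ℝ) * ((faces K d).card : ℝ))

/-- `‖f‖_i`: the sum of the weights `w_i(σ)` over the `σ ∈ K(i)` with `f σ ≠ 0`. -/
noncomputable def size (K : AbstractSimplicialComplex (Fin n)) (d i : ℕ)
    (f : Finset (Fin n) → ZMod 2) : ℝ :=
  ∑ σ ∈ (faces K i).filter fun σ => f σ ≠ 0, weight K d i σ

/-- `(δ_i f)(τ)`: the sum in `F_2` of the values `f σ` over the `σ ⊆ τ` with `i + 1` elements. -/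
def cobd (i : ℕ) (f : Finset (Fin n) → ZMod 2) (τ : Finset (Fin n)) : ZMod 2 :=
  ∑ σ ∈ τ.powersetCard (i + 1), f σ

/-- `B^i`: the constant functions for `i = 0`, the image of `δ_{i-1}` for `i ≥ 1`. -/
def B : ℕ → Set (Finset (Fin n) → ZMod 2)
  | 0 => {b | ∃ c : ZMod 2, ∀ σ, b σ = c}
  | i + 1 => Set.range (cobd i)

end Vale.P067.Cplx
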