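import Vale.Agent.Lib.P067.F.Cplx
import Vale.Agent.Lib.P067.E.Cx

/-!
# P067: relabelling the vertices of a finite complex by `Fin n`
-/

namespace Vale.P067.Cplx

open Finset
open scoped Classical

section Relabel

variable {V : Type} (X : FinCx V)

/-- the vertices of `X` -/
noncomputable def vs : Finset V := X.faces.sup id

theorem mem_vs {v : V} : v ∈ vs X ↔ {v} ∈ X.faces := by
  unfold vs
  rw [Finset.mem_sup]
  constructor
  · rintro ⟨σ, hσ, hv⟩
    exact X.down_closed σ hσ {v} (by simpa using hv) (Finset.singleton_nonempty v)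
  · intro h
    exact ⟨{v}, h, by simp⟩

theorem vs_card : (vs X).card = (X.cells 0).card := by
  refine Finset.card_bij (fun v _ => {v}) ?_ ?_ ?_
  · intro v hv
    unfold FinCx.cells
    rw [Finset.mem_filter]
    exact ⟨(mem_vs X).1 hv, by simp⟩
  · intro v _ w _ h
    simpa using h
  · intro σ hσ
    unfold FinCx.cells at hσ
    rw [Finset.mem_filter, zero_add, Finset.card_eq_one] at hσ
    obtain ⟨h1, v, rfl⟩ := hσ
    exact ⟨v, (mem_vs X).2 h1, rfl⟩

/-- the labelling of the vertices -/
noncomputable def lab : Fin (vs X).card ↪ V :=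
  (vs X).equivFin.symm.toEmbedding.trans (Function.Embedding.subtype _)

theorem lab_mem (i : Fin (vs X).card) : lab X i ∈ vs X :=
  ((vs X).equivFin.symm i).2

theorem exists_lab {v : V} (hv : v ∈ vs X) : ∃ i, lab X i = v := by
  refine ⟨(vs X).equivFin ⟨v, hv⟩, ?_⟩
  change (((vs X).equivFin.symm ((vs X).equivFin ⟨v, hv⟩)) : V) = v
  rw [Equiv.symm_apply_apply]

/-- the preimage of a set of vertices -/
noncomputable def pre (σ : Finset V) : Finset (Fin (vs X).card) :=
  univ.filter fun i => lab X i ∈ σ

theorem pre_map (σ : Finset (Fin (vs X).card)) : pre X (σ.map (lab X)) = σ := by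
  ext i
  unfold pre
  simp

theorem map_pre {σ : Finset V} (hσ : σ ∈ X.faces) : (pre X σ).map (lab X) = σ := by
  ext v
  unfold pre
  simp only [Finset.mem_map, Finset.mem_filter, Finset.mem_univ, true_and]
  constructor
  · rintro ⟨i, hi, rfl⟩
    exact hi
  · intro hv
    have h1 : v ∈ vs X := by
      rw [mem_vs]
      exact X.down_closed σ hσ {v} (by simpa using hv) (Finset.singleton_nonempty v)
    obtain ⟨i, hi⟩ := exists_lab X h1
    exact ⟨i, by rw [hi]; exact hv, hi⟩

/-- the relabelled complex -/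
noncomputable def rel : AbstractSimplicialComplex (Fin (vs X).card) where
  faces := {σ | σ.map (lab X) ∈ X.faces}
  isRelLowerSet_faces := by
    intro σ hσ
    have h1 : σ.map (lab X) ∈ X.faces := hσ
    refine ⟨?_, ?_⟩
    · have h2 := X.nonempty_of_mem _ h1
      simpa using h2
    · intro τ hτ hne
      change τ.map (lab X) ∈ X.faces
      exact X.down_closed _ h1 _ (Finset.map_subset_map.2 hτ) (by simpa using hne)
  singleton_mem := by
    intro i
    change ({i} : Finset _).map (lab X) ∈ X.faces
    rw [Finset.map_singleton]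
    exact (mem_vs X).1 (lab_mem X i)

theorem mem_rel {σ : Finset (Fin (vs X).card)} : σ ∈ rel X ↔ σ.map (lab X) ∈ X.faces := Iff.rfl

theorem mem_faces_rel {σ : Finset (Fin (vs X).card)} {i : ℕ} :
    σ ∈ faces (rel X) i ↔ σ.map (lab X) ∈ X.cells i := by
  unfold faces FinCx.cells
  rw [Finset.mem_filter, Finset.mem_filter, Finset.card_map]
  simp only [Finset.mem_univ, true_and, mem_rel]

theorem cells_eq (i : ℕ) :
    X.cells i = (faces (rel X) i).map (Finset.mapEmbedding (lab X)).toEmbedding := by
  ext σ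
  rw [Finset.mem_map]
  constructor
  · intro h
    have h1 : σ ∈ X.faces := by
      unfold FinCx.cells at h
      exact (Finset.mem_filter.1 h).1
    refine ⟨pre X σ, ?_, map_pre X h1⟩
    rw [mem_faces_rel, map_pre X h1]
    exact h
  · rintro ⟨τ, hτ, rfl⟩
    exact (mem_faces_rel X).1 hτ

theorem card_faces (i : ℕ) : (faces (rel X) i).card = (X.cells i).card := by
  rw [cells_eq, Finset.card_map]

theorem weight_eq (d i : ℕ) (σ : Finset (Fin (vs X).card)) :
    weight (rel X) d i σ = X.weight d i (σ.map (lab X)) := by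
  unfold weight FinCx.weight
  rw [card_faces]
  congr 2
  rw [cells_eq, Finset.filter_map, Finset.card_map]
  congr 1
  ext τ
  simp only [Finset.mem_filter, Function.comp_apply]
  refine and_congr_right fun _ => ?_
  exact Finset.map_subset_map.symm

theorem size_eq (d i : ℕ) (f : Finset (Fin (vs X).card) → ZMod 2) :
    size (rel X) d i f = X.nrm d (i := i) (fun σ => f (pre X σ.1)) := by
  unfold size FinCx.nrm
  rw [Finset.sum_coe_sort (X.cells i) (fun σ => if f (pre X σ) ≠ 0 then X.weight d i σ else 0),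
    cells_eq, Finset.sum_map, Finset.sum_filter]
  refine Finset.sum_congr rfl fun σ _ => ?_
  have h1 : (Finset.mapEmbedding (lab X)).toEmbedding σ = σ.map (lab X) := rfl
  rw [h1, pre_map, weight_eq]

theorem cobd_eq (i : ℕ) (f : Finset (Fin (vs X).card) → ZMod 2)
    (τ : {τ : Finset V // τ ∈ X.cells (i + 1)}) :
    X.cobd (i := i) (fun σ => f (pre X σ.1)) τ = cobd i f (pre X τ.1) := by
  obtain ⟨τ', hτ'⟩ := τ
  have hτf : τ' ∈ X.faces := by
    unfold FinCx.cells at hτ'
    exact (Finset.mem_filter.1 hτ').1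
  unfold FinCx.cobd cobd
  rw [Finset.sum_coe_sort (X.cells i) (fun σ => if σ ⊆ τ' then f (pre X σ) else 0),
    cells_eq, Finset.sum_map, ← Finset.sum_filter]
  refine Finset.sum_congr ?_ fun σ _ => ?_
  · ext σ
    have h1 : (Finset.mapEmbedding (lab X)).toEmbedding σ = σ.map (lab X) := rfl
    simp only [Finset.mem_filter, Finset.mem_powersetCard, h1]
    constructor
    · rintro ⟨h2, h3⟩
      refine ⟨?_, ?_⟩
      · rw [← map_pre X hτf] at h3
        exact Finset.map_subset_map.1 h3
      · unfold faces at h2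
        exact (Finset.mem_filter.1 h2).2.2
    · rintro ⟨h2, h3⟩
      have h4 : σ.map (lab X) ⊆ τ' := by
        rw [← map_pre X hτf]
        exact Finset.map_subset_map.2 h2
      refine ⟨?_, h4⟩
      rw [mem_faces_rel]
      unfold FinCx.cells
      rw [Finset.mem_filter, Finset.card_map]
      refine ⟨X.down_closed _ hτf _ h4 ?_, h3⟩
      rw [Finset.map_nonempty, ← Finset.card_pos]
      omega
  · have h1 : (Finset.mapEmbedding (lab X)).toEmbedding σ = σ.map (lab X) := rfl
    rw [h1, pre_map]

/-- the relabelled complex of an expander is an expander; the distance is attained -/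
theorem expander_rel {d : ℕ} {ε : ℝ} (hX : X.CoboundaryExpander d ε) (i : ℕ) (hi : i < d)
    (f : Finset (Fin (vs X).card) → ZMod 2) : ∃ b ∈ B i,
      ε * size (rel X) d i (f - b) ≤ size (rel X) d (i + 1) (cobd i f) := by
  have h1 := hX i hi (fun σ => f (pre X σ.1))
  have h2 : X.nrm d (X.cobd (i := i) (fun σ => f (pre X σ.1))) =
      size (rel X) d (i + 1) (cobd i f) := by
    rw [size_eq]
    congr 1
    funext τ
    exact cobd_eq X i f τ
  rw [h2] at h1
  have hne : ((fun a => X.nrm d ((fun σ => f (pre X σ.1)) - a)) '' X.Bdry i).Nonempty := by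
    refine Set.Nonempty.image _ ?_
    cases i with
    | zero => exact ⟨fun _ => 0, 0, fun _ => rfl⟩
    | succ j => exact ⟨X.cobd 0, 0, rfl⟩
  have hfin : ((fun a => X.nrm d ((fun σ => f (pre X σ.1)) - a)) '' X.Bdry i).Finite :=
    Set.Finite.image _ (Set.toFinite _)
  have h3 := hne.csInf_mem hfin
  obtain ⟨a, ha, ha2⟩ := h3
  have h4 : X.nrm d ((fun σ => f (pre X σ.1)) - a) =
      X.dist d (fun σ => f (pre X σ.1)) (X.Bdry i) := ha2
  rw [← h4] at h1
  -- the element of `B i`
  obtain ⟨b, hb, hba⟩ : ∃ b ∈ (B i : Set (Finset (Fin (vs X).card) → ZMod 2)),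
      a = fun σ => b (pre X σ.1) := by
    cases i with
    | zero =>
      obtain ⟨c, hc⟩ := ha
      exact ⟨fun _ => c, ⟨c, fun _ => rfl⟩, funext fun σ => hc σ⟩
    | succ j =>
      obtain ⟨g, rfl⟩ := ha
      let g' : Finset (Fin (vs X).card) → ZMod 2 := fun σ =>
        if h : σ.map (lab X) ∈ X.cells j then g ⟨σ.map (lab X), h⟩ else 0
      have hg : g = fun σ => g' (pre X σ.1) := by
        funext σ
        obtain ⟨σ', hσ'⟩ := σ
        have hf : σ' ∈ X.faces := by
          unfold FinCx.cells at hσ'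
          exact (Finset.mem_filter.1 hσ').1
        simp only [g', map_pre X hf, hσ', dif_pos]
      refine ⟨cobd j g', ⟨g', rfl⟩, ?_⟩
      funext τ
      rw [← cobd_eq X j g' τ, ← hg]
  refine ⟨b, hb, ?_⟩
  have h5 : size (rel X) d i (f - b) = X.nrm d ((fun σ => f (pre X σ.1)) - a) := by
    rw [size_eq, hba]
    rfl
  rw [h5]
  exact h1

theorem pure_rel {d : ℕ} (hX : X.Pure d) :
    ∀ σ ∈ rel X, ∃ τ ∈ rel X, τ.card = d + 1 ∧ σ ⊆ τ := by
  intro σ hσ
  obtain ⟨τ, hτ, hst⟩ := hX.2 _ hσ
  have hf : τ ∈ X.faces := by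
    unfold FinCx.cells at hτ
    exact (Finset.mem_filter.1 hτ).1
  have hc : τ.card = d + 1 := by
    unfold FinCx.cells at hτ
    exact (Finset.mem_filter.1 hτ).2
  refine ⟨pre X τ, ?_, ?_, ?_⟩
  · rw [mem_rel, map_pre X hf]
    exact hf
  · rw [← Finset.card_map (lab X), map_pre X hf]
    exact hc
  · rw [← map_pre X hf] at hst
    exact Finset.map_subset_map.1 hst

theorem degree_rel {d D : ℕ} (hX : X.DegreeLE d D) (v : Fin (vs X).card) :
    ((faces (rel X) d).filter fun τ => v ∈ τ).card ≤ D := by
  refine le_trans (le_of_eq ?_) (hX (lab X v))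
  rw [cells_eq, Finset.filter_map, Finset.card_map]
  congr 1
  ext τ
  simp only [Finset.mem_filter, Function.comp_apply]
  refine and_congr_right fun _ => ?_
  exact (Finset.mem_map' (lab X)).symm

theorem vs_pos {d : ℕ} (hX : X.Pure d) : 0 < (vs X).card := by
  obtain ⟨τ, hτ⟩ := hX.1
  have hf : τ ∈ X.faces := by
    unfold FinCx.cells at hτ
    exact (Finset.mem_filter.1 hτ).1
  obtain ⟨v, hv⟩ := X.nonempty_of_mem τ hf
  refine Finset.card_pos.2 ⟨v, ?_⟩
  rw [mem_vs]
  exact X.down_closed τ hf {v} (by simpa using hv) (Finset.singleton_nonempty v)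

theorem connected_rel {d : ℕ} (hP : X.Pure d) (hX : X.Connected) :
    (SimpleGraph.fromRel fun a b : Fin (vs X).card => ({a, b} : Finset _) ∈ rel X).Connected := by
  have : Nonempty (Fin (vs X).card) := ⟨⟨0, vs_pos X hP⟩⟩
  refine SimpleGraph.Connected.mk fun u v => ?_
  have h1 := hX (lab X u) (lab X v) ((mem_vs X).1 (lab_mem X u)) ((mem_vs X).1 (lab_mem X v))
  have key : ∀ w : V, Relation.ReflTransGen
      (fun a b : V => ({a, b} : Finset V) ∈ X.faces) (lab X u) w → ∀ j, lab X j = w →
      (SimpleGraph.fromRel fun a b : Fin (vs X).card => ({a, b} : Finset _) ∈ rel X).Reachable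
        u j := by
    intro w hw
    induction hw with
    | refl =>
      intro j hj
      have : j = u := (lab X).injective hj
      rw [this]
    | tail h2 h3 ih =>
      rename_i b c
      intro j hj
      have hb : b ∈ vs X := by
        rw [mem_vs]
        exact X.down_closed _ h3 {b} (by simp) (Finset.singleton_nonempty b)
      obtain ⟨k, hk⟩ := exists_lab X hb
      have h4 := ih k hk
      by_cases hkj : k = j
      · rw [← hkj]
        exact h4
      · refine h4.trans (SimpleGraph.Adj.reachable ?_)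
        rw [SimpleGraph.fromRel_adj]
        refine ⟨hkj, Or.inl ?_⟩
        rw [mem_rel]
        have h5 : ({k, j} : Finset _).map (lab X) = {b, c} := by
          rw [← hk, ← hj]
          ext x
          simp
        rw [h5]
        exact h3
  exact key _ h1 v rfl

end Relabel

end Vale.P067.Cplx
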